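import Crest.Agent.R186.Sym

/-!
The 20-dimensional symmetric algebra `TT k q = C ⋉ D C`, where `C` has basis
`e x y z u v t j f n` and the primed coordinates are those of the dual basis.
(Generated multiplication table.)
-/

set_option autoImplicit false

universe u

namespace Crest.Agent.R186

@[ext] structure TT (k : Type u) (q : k) where
  (e x y z u v t j f n e' x' y' z' u' v' t' j' f' n' : k)

namespace TT

variable {k : Type u} [Field k] {q : k}

/-- coordinates -/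
def toProd (a : TT k q) : k × k × k × k × k × k × k × k × k × k × k × k × k × k × k × k × k × k × k × k :=
  (a.e, a.x, a.y, a.z, a.u, a.v, a.t, a.j, a.f, a.n, a.e', a.x', a.y', a.z', a.u', a.v', a.t', a.j', a.f', a.n')

omit [Field k] in
theorem toProd_inj : Function.Injective (toProd : TT k q → _) := by
  intro a b h
  simp only [toProd, Prod.mk.injEq] at h
  ext <;> tauto

@[simps] instance : Zero (TT k q) := ⟨⟨0, 0, 0, 0, 0, 0, 0, 0, 0, 0, 0, 0, 0, 0, 0, 0, 0, 0, 0, 0⟩⟩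
@[simps] instance : Add (TT k q) := ⟨fun a b => ⟨a.e + b.e, a.x + b.x, a.y + b.y, a.z + b.z, a.u + b.u, a.v + b.v, a.t + b.t, a.j + b.j, a.f + b.f, a.n + b.n, a.e' + b.e', a.x' + b.x', a.y' + b.y', a.z' + b.z', a.u' + b.u', a.v' + b.v', a.t' + b.t', a.j' + b.j', a.f' + b.f', a.n' + b.n'⟩⟩
@[simps] instance : Neg (TT k q) := ⟨fun a => ⟨-a.e, -a.x, -a.y, -a.z, -a.u, -a.v, -a.t, -a.j, -a.f, -a.n, -a.e', -a.x', -a.y', -a.z', -a.u', -a.v', -a.t', -a.j', -a.f', -a.n'⟩⟩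
@[simps] instance : Sub (TT k q) := ⟨fun a b => ⟨a.e - b.e, a.x - b.x, a.y - b.y, a.z - b.z, a.u - b.u, a.v - b.v, a.t - b.t, a.j - b.j, a.f - b.f, a.n - b.n, a.e' - b.e', a.x' - b.x', a.y' - b.y', a.z' - b.z', a.u' - b.u', a.v' - b.v', a.t' - b.t', a.j' - b.j', a.f' - b.f', a.n' - b.n'⟩⟩
@[simps] instance {S : Type*} [SMul S k] : SMul S (TT k q) := ⟨fun c a => ⟨c • a.e, c • a.x, c • a.y, c • a.z, c • a.u, c • a.v, c • a.t, c • a.j, c • a.f, c • a.n, c • a.e', c • a.x', c • a.y', c • a.z', c • a.u', c • a.v', c • a.t', c • a.j', c • a.f', c • a.n'⟩⟩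
@[simps] instance : One (TT k q) := ⟨⟨1, 0, 0, 0, 0, 0, 0, 0, 1, 0, 0, 0, 0, 0, 0, 0, 0, 0, 0, 0⟩⟩
@[simps] instance : Mul (TT k q) := ⟨fun a b =>
  { e := a.e * b.e
    x := a.e * b.x + a.x * b.e + a.u * b.t
    y := a.e * b.y + a.y * b.e + q * a.u * b.t
    z := a.e * b.z + a.z * b.e + a.y * b.x + a.v * b.t - q * a.x * b.y - q * a.u * b.j
    u := a.e * b.u + a.u * b.f
    v := a.e * b.v + a.v * b.f + a.y * b.u - q ^ 2 * a.x * b.u - q * a.u * b.n
    t := a.f * b.t + a.t * b.e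
    j := a.f * b.j + a.j * b.e + a.t * b.y + a.n * b.t - a.t * b.x
    f := a.f * b.f
    n := a.f * b.n + a.n * b.f + (q - 1) * a.t * b.u
    e' := a.e * b.e' + a.e' * b.e + a.x * b.x' + a.x' * b.x + a.y * b.y' + a.y' * b.y + a.z * b.z' + a.z' * b.z + a.u * b.u' + a.v * b.v' + a.t' * b.t + a.j' * b.j
    x' := a.x' * b.e + a.e * b.x' + a.z' * b.y - q * a.y * b.z' - q ^ 2 * a.u * b.v' - a.j' * b.t
    y' := a.y' * b.e + a.e * b.y' + a.x * b.z' + a.u * b.v' + a.j' * b.t - q * a.z' * b.x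
    z' := a.z' * b.e + a.e * b.z'
    u' := a.u' * b.e + a.f * b.u' + a.v' * b.y + a.t * b.x' + q * a.t * b.y' + (q - 1) * a.n' * b.t - q ^ 2 * a.v' * b.x - q * a.j * b.z' - q * a.n * b.v'
    v' := a.v' * b.e + a.f * b.v' + a.t * b.z'
    t' := a.t' * b.f + a.e * b.t' + a.x' * b.u + q * a.y' * b.u + a.z' * b.v + a.y * b.j' + (q - 1) * a.u * b.n' + a.j' * b.n - a.x * b.j'
    j' := a.j' * b.f + a.e * b.j' - q * a.z' * b.u
    f' := a.u' * b.u + a.v' * b.v + a.t * b.t' + a.j * b.j' + a.f * b.f' + a.f' * b.f + a.n * b.n' + a.n' * b.n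
    n' := a.n' * b.f + a.f * b.n' + a.t * b.j' - q * a.v' * b.u }⟩

instance : AddCommGroup (TT k q) :=
  toProd_inj.addCommGroup toProd rfl (fun _ _ => rfl) (fun _ => rfl) (fun _ _ => rfl)
    (fun _ _ => rfl) (fun _ _ => rfl)

/-- coordinates as an additive map -/
def toProdA : TT k q →+ k × k × k × k × k × k × k × k × k × k × k × k × k × k × k × k × k × k × k × k :=
  ⟨⟨toProd, rfl⟩, fun _ _ => rfl⟩

instance : Module k (TT k q) := toProd_inj.module k toProdA fun _ _ => rfl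

theorem mul_assoc' (a b c : TT k q) : a * b * c = a * (b * c) := by
  ext <;> simp only [mul_e, mul_x, mul_y, mul_z, mul_u, mul_v, mul_t, mul_j, mul_f, mul_n, mul_e',
    mul_x', mul_y', mul_z', mul_u', mul_v', mul_t', mul_j', mul_f', mul_n'] <;> ring

instance : Ring (TT k q) where
  __ := (inferInstance : AddCommGroup (TT k q))
  mul_assoc := mul_assoc'
  one_mul a := by ext <;> simp
  mul_one a := by ext <;> simp
  zero_mul a := by ext <;> simp
  mul_zero a := by ext <;> simp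
  left_distrib a b c := by ext <;> simp <;> ring
  right_distrib a b c := by ext <;> simp <;> ring

instance : Algebra k (TT k q) :=
  Algebra.ofModule (fun c a b => by ext <;> simp <;> ring) (fun c a b => by ext <;> simp <;> ring)

@[simps] def be : TT k q := ⟨1, 0, 0, 0, 0, 0, 0, 0, 0, 0, 0, 0, 0, 0, 0, 0, 0, 0, 0, 0⟩
@[simps] def bx : TT k q := ⟨0, 1, 0, 0, 0, 0, 0, 0, 0, 0, 0, 0, 0, 0, 0, 0, 0, 0, 0, 0⟩
@[simps] def bY : TT k q := ⟨0, 0, 1, 0, 0, 0, 0, 0, 0, 0, 0, 0, 0, 0, 0, 0, 0, 0, 0, 0⟩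
@[simps] def bz : TT k q := ⟨0, 0, 0, 1, 0, 0, 0, 0, 0, 0, 0, 0, 0, 0, 0, 0, 0, 0, 0, 0⟩
@[simps] def bu : TT k q := ⟨0, 0, 0, 0, 1, 0, 0, 0, 0, 0, 0, 0, 0, 0, 0, 0, 0, 0, 0, 0⟩
@[simps] def bv : TT k q := ⟨0, 0, 0, 0, 0, 1, 0, 0, 0, 0, 0, 0, 0, 0, 0, 0, 0, 0, 0, 0⟩
@[simps] def bt : TT k q := ⟨0, 0, 0, 0, 0, 0, 1, 0, 0, 0, 0, 0, 0, 0, 0, 0, 0, 0, 0, 0⟩
@[simps] def bj : TT k q := ⟨0, 0, 0, 0, 0, 0, 0, 1, 0, 0, 0, 0, 0, 0, 0, 0, 0, 0, 0, 0⟩
@[simps] def bf : TT k q := ⟨0, 0, 0, 0, 0, 0, 0, 0, 1, 0, 0, 0, 0, 0, 0, 0, 0, 0, 0, 0⟩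
@[simps] def bn : TT k q := ⟨0, 0, 0, 0, 0, 0, 0, 0, 0, 1, 0, 0, 0, 0, 0, 0, 0, 0, 0, 0⟩
@[simps] def be' : TT k q := ⟨0, 0, 0, 0, 0, 0, 0, 0, 0, 0, 1, 0, 0, 0, 0, 0, 0, 0, 0, 0⟩
@[simps] def bx' : TT k q := ⟨0, 0, 0, 0, 0, 0, 0, 0, 0, 0, 0, 1, 0, 0, 0, 0, 0, 0, 0, 0⟩
@[simps] def bY' : TT k q := ⟨0, 0, 0, 0, 0, 0, 0, 0, 0, 0, 0, 0, 1, 0, 0, 0, 0, 0, 0, 0⟩
@[simps] def bz' : TT k q := ⟨0, 0, 0, 0, 0, 0, 0, 0, 0, 0, 0, 0, 0, 1, 0, 0, 0, 0, 0, 0⟩
@[simps] def bu' : TT k q := ⟨0, 0, 0, 0, 0, 0, 0, 0, 0, 0, 0, 0, 0, 0, 1, 0, 0, 0, 0, 0⟩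
@[simps] def bv' : TT k q := ⟨0, 0, 0, 0, 0, 0, 0, 0, 0, 0, 0, 0, 0, 0, 0, 1, 0, 0, 0, 0⟩
@[simps] def bt' : TT k q := ⟨0, 0, 0, 0, 0, 0, 0, 0, 0, 0, 0, 0, 0, 0, 0, 0, 1, 0, 0, 0⟩
@[simps] def bj' : TT k q := ⟨0, 0, 0, 0, 0, 0, 0, 0, 0, 0, 0, 0, 0, 0, 0, 0, 0, 1, 0, 0⟩
@[simps] def bf' : TT k q := ⟨0, 0, 0, 0, 0, 0, 0, 0, 0, 0, 0, 0, 0, 0, 0, 0, 0, 0, 1, 0⟩
@[simps] def bn' : TT k q := ⟨0, 0, 0, 0, 0, 0, 0, 0, 0, 0, 0, 0, 0, 0, 0, 0, 0, 0, 0, 1⟩

theorem eq_sum (a : TT k q) : a = a.e • be + a.x • bx + a.y • bY + a.z • bz + a.u • bu + a.v • bv + a.t • bt + a.j • bj + a.f • bf + a.n • bn + a.e' • be' + a.x' • bx' + a.y' • bY' + a.z' • bz' + a.u' • bu' + a.v' • bv' + a.t' • bt' + a.j' • bj' + a.f' • bf' + a.n' • bn' := by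
  ext <;> simp

/-- the symmetrising form -/
def lam : TT k q →ₗ[k] k where
  toFun a := a.e' + a.f'
  map_add' a b := by simp; ring
  map_smul' c a := by simp; ring

@[simp] theorem lam_apply (a : TT k q) : lam a = a.e' + a.f' := rfl

/-- the basis -/
def bas : Fin 20 → TT k q := ![be, bx, bY, bz, bu, bv, bt, bj, bf, bn, be', bx', bY', bz', bu', bv', bt', bj', bf', bn']
/-- the dual basis -/
def bas' : Fin 20 → TT k q := ![be', bx', bY', bz', bu', bv', bt', bj', bf', bn', be, bx, bY, bz, bu, bv, bt, bj, bf, bn]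

theorem sum_bas {N : Type*} [AddCommMonoid N] (F : TT k q → TT k q → N) :
    ∑ i, F (bas i) (bas' i) = F be be' + F bx bx' + F bY bY' + F bz bz' + F bu bu' + F bv bv' + F bt bt' + F bj bj' + F bf bf' + F bn bn' + F be' be + F bx' bx + F bY' bY + F bz' bz + F bu' bu + F bv' bv + F bt' bt + F bj' bj + F bf' bf + F bn' bn := by
  simp only [bas, bas', Fin.sum_univ_succ, Matrix.cons_val_zero, Matrix.cons_val_succ,
    Fin.sum_univ_zero, add_zero, add_assoc]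

variable (k q) in
/-- dual bases -/
def sym : SymData k (TT k q) where
  ι := Fin 20
  a := bas
  a' := bas'
  lam := lam
  symm a b := by simp; ring
  expand w := by
    rw [sum_bas (fun a a' => lam (a' * w) • a)]
    ext <;> simp

@[simp] theorem sym_lam : (sym k q).lam = lam := rfl

theorem sym_sum {N : Type*} [AddCommMonoid N] (F : TT k q → TT k q → N) :
    ∑ i, F ((sym k q).a i) ((sym k q).a' i) = F be be' + F bx bx' + F bY bY' + F bz bz' + F bu bu' + F bv bv' + F bt bt' + F bj bj' + F bf bf' + F bn bn' + F be' be + F bx' bx + F bY' bY + F bz' bz + F bu' bu + F bv' bv + F bt' bt + F bj' bj + F bf' bf + F bn' bn :=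
  sum_bas F

instance : FiniteDimensional k (TT k q) := (sym k q).fd

theorem algebraMap_eq (c : k) : algebraMap k (TT k q) c = c • (1 : TT k q) := rfl

/-- the character of the simple module `s` -/
def chi : TT k q →ₐ[k] k where
  toFun a := a.f
  map_one' := rfl
  map_mul' _ _ := rfl
  map_zero' := rfl
  map_add' _ _ := rfl
  commutes' c := by simp [algebraMap_eq]

@[simp] theorem chi_apply (a : TT k q) : chi a = a.f := rfl

theorem lam_mul_soc (a : TT k q) : (sym k q).lam (a * bf') = chi a := by simp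

/-- scaling of the dual part -/
@[simps] def scal (H : k) (a : TT k q) : TT k q := ⟨a.e, a.x, a.y, a.z, a.u, a.v, a.t, a.j, a.f, a.n, H * a.e', H * a.x', H * a.y', H * a.z', H * a.u', H * a.v', H * a.t', H * a.j', H * a.f', H * a.n'⟩

/-- the automorphism scaling `D C` by `H` -/
def hh (H : k) (hH : H ≠ 0) : TT k q ≃ₐ[k] TT k q where
  toFun := scal H
  invFun := scal H⁻¹
  left_inv a := by ext <;> simp [hH]
  right_inv a := by ext <;> simp [hH]
  map_mul' a b := by ext <;> simp <;> ring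
  map_add' a b := by ext <;> simp <;> ring
  commutes' c := by ext <;> simp [algebraMap_eq]

@[simp] theorem hh_apply (H : k) (hH : H ≠ 0) (a : TT k q) : hh H hH a = scal H a := rfl

/-- the sign `(-1)^(length + weight)` -/
@[simps] def sgn (a : TT k q) : TT k q := ⟨a.e, -a.x, -a.y, a.z, -a.u, a.v, a.t, -a.j, a.f, -a.n, -a.e', a.x', a.y', -a.z', a.u', -a.v', -a.t', a.j', -a.f', a.n'⟩

/-- the sign automorphism -/
def sg : TT k q →ₐ[k] TT k q where
  toFun := sgn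
  map_one' := by ext <;> simp
  map_mul' a b := by ext <;> simp <;> ring
  map_zero' := by ext <;> simp
  map_add' a b := by ext <;> simp <;> ring
  commutes' c := by ext <;> simp [algebraMap_eq]

@[simp] theorem sg_apply (a : TT k q) : sg a = sgn a := rfl

/-- `a_c = x + c y` -/
def ac (c : k) : TT k q := bx + c • bY

theorem adjoin_eq_top (hq0 : q ≠ 0) (hq1 : q ≠ 1) (S : Subalgebra k (TT k q)) (he : be ∈ S)
    (hx : bx ∈ S) (hu : bu ∈ S) (ht : bt ∈ S) (hz' : bz' ∈ S) (a : TT k q) : a ∈ S := by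
  have hq1' : q - 1 ≠ 0 := sub_ne_zero.2 hq1
  have hf : bf ∈ S := by
    convert S.sub_mem S.one_mem he using 1; ext <;> simp
  have hy : bY ∈ S := by
    convert S.smul_mem (S.sub_mem (S.mul_mem hu ht) hx) q⁻¹ using 1; ext <;> simp [hq0]
  have hz : bz ∈ S := by convert S.mul_mem hy hx using 1; ext <;> simp
  have hv : bv ∈ S := by convert S.mul_mem hy hu using 1; ext <;> simp
  have hj : bj ∈ S := by convert S.mul_mem ht hy using 1; ext <;> simp
  have hn : bn ∈ S := by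
    convert S.smul_mem (S.mul_mem ht hu) (q - 1)⁻¹ using 1; ext <;> simp [hq1']
  have hy' : bY' ∈ S := by convert S.mul_mem hx hz' using 1; ext <;> simp
  have hx' : bx' ∈ S := by convert S.mul_mem hz' hy using 1; ext <;> simp
  have he' : be' ∈ S := by convert S.mul_mem hz hz' using 1; ext <;> simp
  have hv' : bv' ∈ S := by convert S.mul_mem ht hz' using 1; ext <;> simp
  have hu' : bu' ∈ S := by
    convert S.smul_mem (S.mul_mem hj hz') (-q⁻¹) using 1; ext <;> simp [hq0]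
  have hj' : bj' ∈ S := by
    convert S.smul_mem (S.mul_mem hz' hu) (-q⁻¹) using 1; ext <;> simp [hq0]
  have ht' : bt' ∈ S := by convert S.mul_mem hz' hv using 1; ext <;> simp
  have hf' : bf' ∈ S := by convert S.mul_mem hj hj' using 1; ext <;> simp
  have hn' : bn' ∈ S := by convert S.mul_mem ht hj' using 1; ext <;> simp
  rw [eq_sum a]
  repeat' first | apply S.add_mem | apply S.smul_mem
  all_goals assumption

end TT

end Crest.Agent.R186
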